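import Vale.Agent.P092.H156.Sm
import Mathlib.MeasureTheory.Function.L2Space
import Mathlib.MeasureTheory.Group.Measure
import Mathlib.MeasureTheory.Measure.Haar.Basic

/-!
P092, Team A, interface (helper701), version 2: everything is stated with the fields of
`H156/Sm.lean` (`Frm`, `TFrm`, `Fd`, `ACont`, `L2`, `Smo`, `ip`).
Lattices in products of two groups: `Γ` in `G₁ × G₂`, `Λ` in `H₁ × H₂`.

`Pic` is the symmetric picture of `L(Γ) = L(Λ) = M`: on `K = L²(M)` the group `Γ` acts by `ρ` (right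
multiplication by `u_g`), the group `Λ` acts by `V` (left multiplication by `v_s`), these commute and
`Ω` is a trace vector for both.  `M = ρ(Γ)' = V(Λ)''`.
-/

set_option linter.all false

open MeasureTheory Filter Topology ContinuousLinearMap
open scoped InnerProductSpace

namespace Vale.Agent.P092.PA

open Vale.Agent.P092.H160 (RegRep Cmm)
open Vale.Agent.P092.H156

/-- The symmetric picture. -/
structure Pic (Γ Λ K : Type) [Group Γ] [Group Λ] [NormedAddCommGroup K] [InnerProductSpace ℂ K]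
    [CompleteSpace K] where
  ρ : Γ →* (K →L[ℂ] K)
  V : Λ →* (K →L[ℂ] K)
  Ω : K
  hρ : RegRep ρ Ω
  hV : RegRep V Ω
  comm : ∀ g v, ρ g * V v = V v * ρ g

section fields

variable {Γ Λ K : Type} [Group Γ] [Group Λ] [NormedAddCommGroup K] [InnerProductSpace ℂ K]
  [CompleteSpace K]

theorem Pic.frm (D : Pic Γ Λ K) : Sm.Frm D.ρ D.V D.Ω where
  reg := D.hρ
  adj := D.hV.adj
  comm := fun v g => (D.comm g v).symm
  ort := fun v hv => D.hV.inner_zero v hv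

theorem Pic.tfrm (D : Pic Γ Λ K) : Sm.TFrm D.ρ D.V D.Ω where
  toFrm := D.frm
  total := fun u h => D.hV.total u h

/-- A total frame is a picture. -/
def Pic.ofTFrm {ρ : Γ →* (K →L[ℂ] K)} {V : Λ →* (K →L[ℂ] K)} {ω : K} (h : Sm.TFrm ρ V ω) :
    Pic Γ Λ K where
  ρ := ρ
  V := V
  Ω := ω
  hρ := h.reg
  hV := ⟨h.adj, h.reg.norm_one, h.ort, h.total⟩
  comm := fun g v => (h.comm v g).symm

variable {G H : Type} [Group G] [TopologicalSpace G] [Group H] [TopologicalSpace H]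

/-- The smooth elements of `𝔇(q, p)`. -/
def Smo [MeasurableSpace G] (D : Pic Γ Λ K) (p : Γ →* G) (q : Λ →* H) (μ : Measure G)
    (b : G → (K →L[ℂ] K)) : Prop := Sm.Smo p q D.ρ D.V D.Ω μ b

/-- There is a nonzero smooth element. -/
def NeS [MeasurableSpace G] (D : Pic Γ Λ K) (p : Γ →* G) (q : Λ →* H) (μ : Measure G) : Prop :=
  ∃ b, Smo D p q μ b ∧ b ≠ 0

/-- The extension `α_h` of the conjugation action: `α_h T = lim_{q v → h} V_v T V_v⁻¹`. -/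
noncomputable def al (D : Pic Γ Λ K) (q : Λ →* H) (h : H) (T : K →L[ℂ] K) : K →L[ℂ] K :=
  limUnder (comap q (𝓝 h)) fun v => D.V v * T * D.V v⁻¹

/-- No `p g`, `g ≠ 1`, has an open centraliser. -/
def Noc (p : Γ →* G) : Prop :=
  ∀ g : Γ, g ≠ 1 → ∀ U ∈ 𝓝 (1 : G), ∃ u ∈ U, u * p g ≠ p g * u

/-- Howe–Moore property. -/
def HM (G : Type) [Group G] [TopologicalSpace G] : Prop :=
  ∀ (X : Type) [NormedAddCommGroup X] [InnerProductSpace ℂ X] [CompleteSpace X]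
    (π : G →* (X →L[ℂ] X)), (∀ g ξ, ‖π g ξ‖ = ‖ξ‖) → (∀ ξ, Continuous fun g => π g ξ) →
    (∀ ξ, (∀ g, π g ξ = ξ) → ξ = 0) →
    ∀ ξ η, Tendsto (fun g => ⟪ξ, π g η⟫_ℂ) (cocompact G) (𝓝 0)

/-- The facts used about each of the four (centre free) factors. -/
structure Fac (G : Type) [Group G] [TopologicalSpace G] [MeasurableSpace G] : Prop where
  nc : ¬ CompactSpace G
  simple : ∀ N : Subgroup G, N.Normal → IsClosed (N : Set G) → N = ⊥ ∨ N = ⊤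
  char : ∀ χ : G →* ℂˣ, χ = 1
  conj : ∀ ν : Measure G, IsFiniteMeasure ν → (∀ g, ν.map (fun x => g * x * g⁻¹) = ν) →
    ν {1}ᶜ = 0
  hm : HM G

/-- A place: an injective homomorphism with dense range and without open centralisers. -/
structure Pl (p : Γ →* G) : Prop where
  inj : Function.Injective p
  dense : DenseRange p
  noc : Noc p

/-- `m` is a probability measure on `E` which integrates left `Λ`-invariant functions like the
invariant probability measure of `Λ \ E`. -/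
structure Lat {E : Type} [Group E] [TopologicalSpace E] [MeasurableSpace E] (q : Λ →* E)
    (m : Measure E) : Prop where
  prob : IsProbabilityMeasure m
  inv : ∀ F : E → ℂ, Continuous F → (∃ C : ℝ, ∀ h, ‖F h‖ ≤ C) → (∀ v h, F (q v * h) = F h) →
    ∀ k, ∫ h, F (h * k) ∂m = ∫ h, F h ∂m
  faith : ∀ F : E → ℝ, Continuous F → (∃ C : ℝ, ∀ h, F h ≤ C) → (∀ h, 0 ≤ F h) →
    (∀ v h, F (q v * h) = F h) → ∫ h, F h ∂m = 0 → ∀ h, F h = 0
  fin : ∀ C : Set E, IsCompact C → {v | q v ∈ C}.Finite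

end fields

/-! ### The blocks of Team A, as propositions -/

section blocks

variable {Γ Λ K : Type} [Group Γ] [Group Λ] [NormedAddCommGroup K] [InnerProductSpace ℂ K]
  [CompleteSpace K]
variable {G H : Type} [Group G] [TopologicalSpace G] [MeasurableSpace G]
  [Group H] [TopologicalSpace H]

/-- [F1] `E_M(a* b) = ⟨a, b⟩ 1`. -/
def F1 (D : Pic Γ Λ K) (p : Γ →* G) (q : Λ →* H) (μ : Measure G) : Prop :=
  ∀ a b, Smo D p q μ a → Smo D p q μ b → ∀ ζ η : K, MemLp (fun x => a x ζ) 2 μ ∧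
    ∫ x, ⟪a x ζ, b x η⟫_ℂ ∂μ = Sm.ip D.Ω μ a b * ⟪ζ, η⟫_ℂ

/-- [FULL] the vectors `x ↦ a x V_v Ω` are total in `L²(G; K)`. -/
def Full (D : Pic Γ Λ K) (p : Γ →* G) (q : Λ →* H) (μ : Measure G) : Prop :=
  ∀ ξ : Lp K 2 μ, (∀ a, Smo D p q μ a → ∀ v, ∫ x, ⟪a x (D.V v D.Ω), ξ x⟫_ℂ ∂μ = 0) → ξ = 0

/-- [OUT] a bounded field `T`, continuous for the conjugation in the topology given by `q'`, which
commutes with the smooth elements has no Fourier coefficient off `1`. -/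
def Out {H' : Type} [Group H'] [TopologicalSpace H'] (D : Pic Γ Λ K) (p : Γ →* G) (q : Λ →* H)
    (q' : Λ →* H') (μ : Measure G) : Prop :=
  ∀ T, Sm.Fd p D.ρ T → Sm.ACont q' D.V T →
    (∀ a, Smo D p q μ a → ∀ x, T x * a x = a x * T x) →
    ∀ a b, Smo D p q μ a → Smo D p q μ b → ∀ v, v ≠ 1 →
      ∫ x, ⟪b x (D.V v D.Ω), T x (a x D.Ω)⟫_ℂ ∂μ = 0

variable {G₁ G₂ H₁ H₂ : Type} [Group G₁] [TopologicalSpace G₁] [MeasurableSpace G₁]
  [Group G₂] [TopologicalSpace G₂] [MeasurableSpace G₂]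
  [Group H₁] [TopologicalSpace H₁] [Group H₂] [TopologicalSpace H₂]

/-- [COMM] -/
def Com (D : Pic Γ Λ K) (p₁ : Γ →* G₁) (p₂ : Γ →* G₂) (q₁ : Λ →* H₁) (q₂ : Λ →* H₂)
    (μ₁ : Measure G₁) (μ₂ : Measure G₂) : Prop :=
  ∀ a b, Smo D p₁ q₁ μ₁ a → Smo D p₂ q₂ μ₂ b → ∀ x y, a x * b y = b y * a x

/-- [GLUE] output: the input of `H87.end_star`. -/
def Glu (D : Pic Γ Λ K) : Prop :=
  ∃ S : Set (K →L[ℂ] K), (∀ s ∈ S, ∀ t ∈ S, s + t ∈ S) ∧ (∀ c : ℂ, ∀ s ∈ S, c • s ∈ S) ∧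
    (∀ s ∈ S, ∀ t ∈ S, s * t ∈ S) ∧ (∀ s ∈ S, star s ∈ S) ∧ (∃ s ∈ S, s ≠ 0) ∧
    (∀ s ∈ S, Summable fun v => ‖s (D.V v D.Ω)‖ ^ 2) ∧
    (∀ v, ∀ s ∈ S, D.V v * s * D.V v⁻¹ ∈ S) ∧ (∀ g, ∀ s ∈ S, D.ρ g * s * D.ρ g⁻¹ ∈ S) ∧
    ∀ s ∈ S, ∀ t ∈ S, ∀ v, v ≠ 1 →
      ∑' w, ⟪s (D.V w D.Ω), t (D.V v (D.V w D.Ω))⟫_ℂ = 0

/-- [END] conclusion: `ρ_g ζ = χ(g) V_{δ(g)} ζ`. -/
def Can (D : Pic Γ Λ K) : Prop :=
  ∃ (ζ : K) (δ : Γ → Λ) (χ : Γ → ℂ), ‖ζ‖ = 1 ∧ (∀ v, v ≠ 1 → ⟪ζ, D.V v ζ⟫_ℂ = 0) ∧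
    Function.Bijective δ ∧ (∀ g, ‖χ g‖ = 1) ∧ ∀ g, D.ρ g ζ = χ g • D.V (δ g) ζ

end blocks

end Vale.Agent.P092.PA
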