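import Vale.Agent.P092.PA.Fac
import Vale.Agent.P092.H839.Rec
import Vale.Agent.P092.H933.HMPA

/-!
P092 (helper899), [A-FAC]: `PSL_n(k)`, `n ≥ 2`, `k` a local field, is a factor.
-/

set_option linter.all false

open Filter Topology Matrix
open scoped InnerProductSpace

namespace Vale.Agent.P092.PA

theorem hm_of_howeMoore {G : Type} [Group G] [TopologicalSpace G] (h : H933.HoweMoore G) : HM G := by
  intro X _ _ _ π h1 h2 h3 ξ η
  have := h X π h1 h2 h3 η ξ
  have h4 := (Complex.continuous_conj.tendsto 0).comp this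
  rw [map_zero] at h4
  refine h4.congr fun g => ?_
  exact inner_conj_symm _ _

/-- **`PSL_n(k)` is a factor**, strong form. -/
theorem facS_psl {k : Type} [NontriviallyNormedField k] [ProperSpace k] (hk : H933.LocK k) {n : ℕ}
    (h2 : 2 ≤ n) : FacS (PS n k) :=
  fac_psl_of h2 (H839.rec_psl k (Fin n)) (hm_of_howeMoore (H933.hm_sl hk h2))

/-- **`PSL_n(k)` is a factor**. -/
theorem fac_psl {k : Type} [NontriviallyNormedField k] [ProperSpace k] (hk : H933.LocK k) {n : ℕ}
    (h2 : 2 ≤ n) [MeasurableSpace (PS n k)] [BorelSpace (PS n k)] : Fac (PS n k) :=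
  (facS_psl hk h2).fac

end Vale.Agent.P092.PA
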