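import Vale.Agent.P092.PA.Defs
import Vale.Agent.P092.H899.Simple
import Mathlib.MeasureTheory.Group.ModularCharacter
import Mathlib.Topology.Algebra.Group.Matrix
import Mathlib.Topology.Algebra.Group.Quotient
import Mathlib.Topology.Maps.Proper.Basic

/-!
P092 (helper899), [A-FAC]: the facts about the factors, as one structure, and the quotient of `SL_n(k)`
by its centre.
-/

set_option linter.all false

open MeasureTheory Filter Topology
open scoped InnerProductSpace NNReal ENNReal

namespace Vale.Agent.P092.PA

/-- Conjugation recurrence: every `z ≠ 1` has a neighbourhood with infinitely many pairwise disjoint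
conjugates. -/
def Rec (G : Type) [Group G] [TopologicalSpace G] : Prop :=
  ∀ z : G, z ≠ 1 → ∃ W ∈ 𝓝 z, ∃ a : ℕ → G, Pairwise fun i j =>
    Disjoint ((fun y => a i * y * (a i)⁻¹) '' W) ((fun y => a j * y * (a j)⁻¹) '' W)

/-- The facts about a factor (strong form). -/
structure FacS (G : Type) [Group G] [TopologicalSpace G] : Prop where
  top : IsTopologicalGroup G
  lc : LocallyCompactSpace G
  sc : SecondCountableTopology G
  t2 : T2Space G
  nc : ¬ CompactSpace G
  simple : ∀ N : Subgroup G, N.Normal → N = ⊥ ∨ N = ⊤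
  cent : ∀ g : G, g ≠ 1 → ¬ IsOpen ((Subgroup.centralizer {g} : Subgroup G) : Set G)
  hom : ∀ (A : Type) [CommGroup A] (f : G →* A), f = 1
  recu : Rec G
  hm : HM G

section

variable {G : Type} [Group G] [TopologicalSpace G]

/-- A finite measure which is invariant under conjugation is carried by `1`. -/
theorem Rec.null [IsTopologicalGroup G] [SecondCountableTopology G] [MeasurableSpace G]
    [BorelSpace G] (h : Rec G) (ν : Measure G) [IsFiniteMeasure ν]
    (hν : ∀ g, ν.map (fun x => g * x * g⁻¹) = ν) : ν {1}ᶜ = 0 := by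
  refine measure_null_of_locally_null _ fun z hz => ?_
  obtain ⟨W, hW, a, ha⟩ := h z hz
  refine ⟨interior W, mem_nhdsWithin_of_mem_nhds (interior_mem_nhds.2 hW), ?_⟩
  have hc : ∀ g : G, ν ((fun y => g * y * g⁻¹) '' interior W) = ν (interior W) := by
    intro g
    have hm : Measurable fun x : G => g⁻¹ * x * g⁻¹⁻¹ := by
      exact (by fun_prop : Continuous fun x : G => g⁻¹ * x * g⁻¹⁻¹).measurable
    have e : (fun y => g * y * g⁻¹) '' interior W = (fun x : G => g⁻¹ * x * g⁻¹⁻¹) ⁻¹' interior W := by
      ext y
      constructor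
      · rintro ⟨x, hx, rfl⟩
        have : g⁻¹ * (g * x * g⁻¹) * g⁻¹⁻¹ = x := by group
        show g⁻¹ * (g * x * g⁻¹) * g⁻¹⁻¹ ∈ interior W
        rwa [this]
      · intro hy
        exact ⟨_, hy, by group⟩
    rw [e, ← Measure.map_apply hm isOpen_interior.measurableSet, hν]
  have ho : ∀ g : G, MeasurableSet ((fun y => g * y * g⁻¹) '' interior W) := by
    intro g
    have e : (fun y => g * y * g⁻¹) '' interior W = (fun x : G => g⁻¹ * x * g) ⁻¹' interior W := by
      ext y
      constructor
      · rintro ⟨x, hx, rfl⟩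
        have : g⁻¹ * (g * x * g⁻¹) * g = x := by group
        show g⁻¹ * (g * x * g⁻¹) * g ∈ interior W
        rwa [this]
      · intro hy
        exact ⟨_, hy, by group⟩
    rw [e]
    exact (isOpen_interior.preimage (by fun_prop)).measurableSet
  have hd : Pairwise fun i j => Disjoint ((fun y => a i * y * (a i)⁻¹) '' interior W)
      ((fun y => a j * y * (a j)⁻¹) '' interior W) := fun i j hij =>
    (ha hij).mono (Set.image_mono interior_subset) (Set.image_mono interior_subset)
  have hs := measure_iUnion (μ := ν) hd fun i => ho (a i)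
  simp only [hc] at hs
  by_contra hne
  rw [ENNReal.tsum_const_eq_top_of_ne_zero hne] at hs
  exact measure_ne_top ν _ hs

namespace FacS

theorem fac (h : FacS G) [MeasurableSpace G] [BorelSpace G] : Fac G where
  nc := h.nc
  simple N hN _ := h.simple N hN
  char χ := h.hom _ χ
  conj ν hf hν := by
    haveI := h.top
    haveI := h.sc
    exact h.recu.null ν hν
  hm := h.hm

/-- The group is unimodular. -/
theorem modular [IsTopologicalGroup G] [LocallyCompactSpace G] (h : FacS G) (g : G) :
    Measure.modularCharacterFun g = 1 := by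
  have h1 := h.hom _ (Measure.modularCharacter (G := G)).toHomUnits
  have h2 : (((Measure.modularCharacter (G := G)).toHomUnits g : ℝ≥0ˣ) : ℝ≥0) = 1 := by
    rw [h1]
    rfl
  exact h2

theorem map_mul_right [IsTopologicalGroup G] [LocallyCompactSpace G] [MeasurableSpace G]
    [BorelSpace G] (h : FacS G) (μ : Measure G) [μ.IsHaarMeasure] (g : G) :
    μ.map (· * g) = μ := by
  haveI := h.sc
  haveI := h.t2
  haveI : Measure.InnerRegular μ := by
    haveI : Measure.Regular μ := inferInstance
    infer_instance
  rw [Measure.map_right_mul_eq_modularCharacterFun_smul, h.modular, one_smul]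

theorem isMulRightInvariant [IsTopologicalGroup G] [LocallyCompactSpace G] [MeasurableSpace G]
    [BorelSpace G] (h : FacS G) (μ : Measure G) [μ.IsHaarMeasure] : μ.IsMulRightInvariant :=
  ⟨h.map_mul_right μ⟩

theorem not_isCompact (h : FacS G) : ¬ IsCompact (Set.univ : Set G) := fun hc =>
  h.nc ⟨hc⟩

theorem noncompactSpace (h : FacS G) : NoncompactSpace G := ⟨h.not_isCompact⟩

theorem measure_univ [IsTopologicalGroup G] [LocallyCompactSpace G] [MeasurableSpace G]
    [BorelSpace G] (h : FacS G) (μ : Measure G) [μ.IsHaarMeasure] : μ Set.univ = ∞ := by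
  haveI := h.noncompactSpace
  exact measure_univ_of_isMulLeftInvariant μ

/-- The group is infinite, in fact no point is isolated. -/
theorem not_discrete (h : FacS G) : ¬ DiscreteTopology G := by
  intro hd
  haveI := h.nc
  by_cases hs : ∀ g : G, g = 1
  · refine h.nc ⟨?_⟩
    have : (Set.univ : Set G) = {1} := by
      ext g; simp [hs g]
    rw [this]
    exact isCompact_singleton
  · push Not at hs
    obtain ⟨g, hg⟩ := hs
    exact h.cent g hg (isOpen_discrete _)

/-- A nontrivial normal subgroup is everything. -/
theorem normal_eq_top (h : FacS G) (N : Subgroup G) (hN : N.Normal) {g : G} (hg : g ∈ N)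
    (h1 : g ≠ 1) : N = ⊤ := by
  refine (h.simple N hN).resolve_left fun hb => h1 ?_
  rw [hb] at hg
  exact Subgroup.mem_bot.1 hg

/-- A subgroup normalised by a dense set, with an element `≠ 1`, is dense. -/
theorem dense_of_normalised [IsTopologicalGroup G] (h : FacS G) (N : Subgroup G) (D : Set G)
    (hD : Dense D) (hn : ∀ d ∈ D, ∀ x ∈ N, d * x * d⁻¹ ∈ N) {g : G} (hg : g ∈ N) (h1 : g ≠ 1) :
    N.topologicalClosure = ⊤ := by
  refine h.normal_eq_top _ ⟨fun x hx y => ?_⟩ (N.le_topologicalClosure hg) h1
  -- first for `x ∈ N`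
  have hc : IsClosed (N.topologicalClosure : Set G) := N.isClosed_topologicalClosure
  have h1 : ∀ x ∈ N, ∀ y : G, y * x * y⁻¹ ∈ N.topologicalClosure := by
    intro x hx y
    have : IsClosed {y : G | y * x * y⁻¹ ∈ N.topologicalClosure} :=
      hc.preimage (by fun_prop : Continuous fun y : G => y * x * y⁻¹)
    have h2 : closure D ⊆ {y : G | y * x * y⁻¹ ∈ N.topologicalClosure} :=
      closure_minimal (fun d hd => N.le_topologicalClosure (hn d hd x hx)) this
    exact h2 (hD y)
  have h3 : IsClosed {x : G | y * x * y⁻¹ ∈ N.topologicalClosure} :=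
    hc.preimage (by fun_prop : Continuous fun x : G => y * x * y⁻¹)
  have h4 : closure (N : Set G) ⊆ {x : G | y * x * y⁻¹ ∈ N.topologicalClosure} :=
    closure_minimal (fun x hx => h1 x hx y) h3
  exact h4 hx

/-- The centre is trivial. -/
theorem center (h : FacS G) : Subgroup.center G = ⊥ := by
  refine (h.simple _ inferInstance).resolve_right fun ht => ?_
  by_cases hs : ∀ g : G, g = 1
  · exact h.nc ⟨by
      have : (Set.univ : Set G) = {1} := by ext g; simp [hs g]
      rw [this]
      exact isCompact_singleton⟩
  · push Not at hs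
    obtain ⟨g, hg⟩ := hs
    refine h.cent g hg ?_
    have : (Subgroup.centralizer {g} : Subgroup G) = ⊤ := by
      rw [Subgroup.centralizer_eq_top_iff_subset]
      rw [ht]
      exact fun x _ => trivial
    rw [this]
    exact isOpen_univ

end FacS

end

/-! ### Quotients by a finite central subgroup -/

section quot

variable {S : Type} [Group S] [TopologicalSpace S] [IsTopologicalGroup S]

/-- A compact set of the quotient is the image of a compact set. -/
theorem isCompact_preimage_mk (Z : Subgroup S) [Z.Normal] (hZ : IsCompact (Z : Set S))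
    {C : Set (S ⧸ Z)} (hC : IsCompact C) : IsCompact ((QuotientGroup.mk : S → S ⧸ Z) ⁻¹' C) := by
  have hp : IsProperMap (QuotientGroup.mk : S → S ⧸ Z) := by
    rw [isProperMap_iff_isClosedMap_and_compact_fibers]
    refine ⟨QuotientGroup.continuous_mk, QuotientGroup.isClosedMap_coe hZ, fun y => ?_⟩
    induction y using QuotientGroup.induction_on with
    | H s =>
      have : (QuotientGroup.mk : S → S ⧸ Z) ⁻¹' {(s : S ⧸ Z)} = (fun z => s * z) '' (Z : Set S) := by
        ext x
        simp only [Set.mem_preimage, Set.mem_singleton_iff, Set.mem_image, SetLike.mem_coe]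
        constructor
        · intro hx
          exact ⟨s⁻¹ * x, QuotientGroup.eq.1 hx.symm, by group⟩
        · rintro ⟨z, hz, rfl⟩
          exact (QuotientGroup.mk_mul_of_mem s hz)
      rw [this]
      exact hZ.image (by fun_prop)
  exact hp.isCompact_preimage hC

theorem nc_quot (Z : Subgroup S) [Z.Normal] (hZ : IsCompact (Z : Set S)) (hS : ¬ CompactSpace S) :
    ¬ CompactSpace (S ⧸ Z) := by
  intro h
  refine hS ⟨?_⟩
  have := isCompact_preimage_mk Z hZ (isCompact_univ (X := S ⧸ Z))
  rwa [Set.preimage_univ] at this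

/-- The Howe–Moore property for quotients. -/
theorem HM.quot (h : HM S) (Z : Subgroup S) [Z.Normal] : HM (S ⧸ Z) := by
  intro X _ _ _ π h1 h2 h3 ξ η
  have hc := h X (π.comp (QuotientGroup.mk' Z)) (fun g ξ => h1 _ ξ)
    (fun ξ => (h2 ξ).comp QuotientGroup.continuous_mk)
    (fun ξ hξ => h3 ξ fun g => by
      induction g using QuotientGroup.induction_on with
      | H s => exact hξ s) ξ η
  rw [tendsto_def] at hc ⊢
  intro U hU
  obtain ⟨K, hK, hKs⟩ := mem_cocompact.1 (hc U hU)
  refine mem_cocompact.2 ⟨(QuotientGroup.mk : S → S ⧸ Z) '' K,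
    hK.image QuotientGroup.continuous_mk, fun x hx => ?_⟩
  induction x using QuotientGroup.induction_on with
  | H s => exact hKs fun hs => hx ⟨s, hs, rfl⟩

theorem simple_quot (h : ∀ N : Subgroup S, N.Normal → N ≤ Subgroup.center S ∨ N = ⊤)
    (N : Subgroup (S ⧸ Subgroup.center S)) (hN : N.Normal) : N = ⊥ ∨ N = ⊤ := by
  rcases h (N.comap (QuotientGroup.mk' (Subgroup.center S))) (hN.comap _) with h | h
  · left
    rw [Subgroup.eq_bot_iff_forall]
    intro x hx
    induction x using QuotientGroup.induction_on with
    | H s => exact (QuotientGroup.eq_one_iff s).2 (h hx)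
  · right
    rw [Subgroup.eq_top_iff']
    intro x
    induction x using QuotientGroup.induction_on with
    | H s =>
      have : s ∈ N.comap (QuotientGroup.mk' (Subgroup.center S)) := by rw [h]; trivial
      exact this

theorem hom_quot (h : ∀ (A : Type) [CommGroup A] (f : S →* A), f = 1) (Z : Subgroup S) [Z.Normal]
    (A : Type) [CommGroup A] (f : S ⧸ Z →* A) : f = 1 := by
  refine MonoidHom.ext fun x => ?_
  induction x using QuotientGroup.induction_on with
  | H s => exact DFunLike.congr_fun (h A (f.comp (QuotientGroup.mk' Z))) s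

/-- Open centralisers in the quotient come from open centralisers, for a finite centre. -/
theorem cent_quot [T2Space S] (hZ : ((Subgroup.center S : Subgroup S) : Set S).Finite)
    (h : ∀ g : S, ((Subgroup.centralizer {g} : Subgroup S) : Set S) ∈ 𝓝 1 → g ∈ Subgroup.center S)
    (g : S ⧸ Subgroup.center S) (hg : g ≠ 1) :
    ¬ IsOpen ((Subgroup.centralizer {g} : Subgroup (S ⧸ Subgroup.center S)) :
      Set (S ⧸ Subgroup.center S)) := by
  intro ho
  induction g using QuotientGroup.induction_on with
  | H s =>
    refine hg ((QuotientGroup.eq_one_iff s).2 (h s ?_))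
    have h1 : (QuotientGroup.mk : S → S ⧸ Subgroup.center S) ⁻¹'
        ((Subgroup.centralizer {(s : S ⧸ Subgroup.center S)} : Subgroup (S ⧸ Subgroup.center S)) :
          Set (S ⧸ Subgroup.center S)) ∈ 𝓝 (1 : S) := by
      refine (ho.preimage QuotientGroup.continuous_mk).mem_nhds ?_
      exact Subgroup.one_mem _
    have h2 : {u : S | u * s * u⁻¹ * s⁻¹ ∈ (((Subgroup.center S : Subgroup S) : Set S) \ {1})ᶜ} ∈
        𝓝 (1 : S) := by
      have hc : IsOpen ((((Subgroup.center S : Subgroup S) : Set S) \ {1})ᶜ) :=
        (hZ.subset Set.diff_subset).isClosed.isOpen_compl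
      refine (hc.preimage (by fun_prop : Continuous fun u : S => u * s * u⁻¹ * s⁻¹)).mem_nhds ?_
      simp
    filter_upwards [h1, h2] with u hu1 hu2
    have e1 : (u * s * u⁻¹ * s⁻¹) ∈ Subgroup.center S := by
      have h5 := Subgroup.mem_centralizer_iff.1 hu1 (s : S ⧸ Subgroup.center S) rfl
      rw [← QuotientGroup.eq_one_iff]
      have h6 : ((u * s * u⁻¹ * s⁻¹ : S) : S ⧸ Subgroup.center S) =
          (u : S ⧸ Subgroup.center S) * s * (u : S ⧸ Subgroup.center S)⁻¹ *
            (s : S ⧸ Subgroup.center S)⁻¹ := rfl
      have h7 : (u : S ⧸ Subgroup.center S) * s = s * u := h5.symm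
      rw [h6, h7]
      group
    have e2 : u * s * u⁻¹ * s⁻¹ = 1 := by
      by_contra hne
      exact hu2 ⟨e1, hne⟩
    refine Subgroup.mem_centralizer_iff.2 fun x hx => ?_
    rw [Set.mem_singleton_iff.1 hx]
    have := eq_of_mul_inv_eq_one e2
    exact (mul_inv_eq_iff_eq_mul.1 this).symm

end quot

/-! ### The quotient of `SL_n(k)` by its centre -/

section sl

open Matrix Matrix.SpecialLinearGroup

variable {k : Type} [NontriviallyNormedField k] {n : ℕ}

theorem t2_SL : T2Space (SpecialLinearGroup (Fin n) k) :=
  (isClosedEmbedding_val (n := Fin n) (R := k)).isEmbedding.t2Space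

theorem lc_SL [ProperSpace k] : LocallyCompactSpace (SpecialLinearGroup (Fin n) k) := by
  haveI : LocallyCompactSpace (Matrix (Fin n) (Fin n) k) :=
    inferInstanceAs (LocallyCompactSpace (Fin n → Fin n → k))
  exact (isClosedEmbedding_val (n := Fin n) (R := k)).locallyCompactSpace

theorem sc_SL [ProperSpace k] : SecondCountableTopology (SpecialLinearGroup (Fin n) k) := by
  haveI : SecondCountableTopology (Matrix (Fin n) (Fin n) k) :=
    inferInstanceAs (SecondCountableTopology (Fin n → Fin n → k))
  exact (isClosedEmbedding_val (n := Fin n) (R := k)).isEmbedding.secondCountableTopology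

theorem nc_SL (h2 : 2 ≤ n) : ¬ CompactSpace (SpecialLinearGroup (Fin n) k) := by
  intro h
  obtain ⟨i, j, hij⟩ : ∃ i j : Fin n, i ≠ j :=
    ⟨⟨0, by omega⟩, ⟨1, by omega⟩, fun h => absurd (congrArg Fin.val h) (by simp)⟩
  have hc : Continuous fun g : SpecialLinearGroup (Fin n) k =>
      ‖(g : Matrix (Fin n) (Fin n) k) i j‖ := by
    refine Continuous.norm ?_
    exact (continuous_subtype_val (p := fun A : Matrix (Fin n) (Fin n) k => A.det = 1)).matrix_elem _ _
  obtain ⟨C, hC⟩ := (isCompact_range hc).bddAbove
  obtain ⟨c, hcC⟩ := NormedField.exists_lt_norm k C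
  have := hC ⟨transvection hij c, rfl⟩
  simp only [transvection_coe] at this
  rw [Matrix.add_apply, Matrix.single_apply_same, Matrix.one_apply_ne hij, zero_add] at this
  linarith

theorem finite_center_SL :
    ((Subgroup.center (SpecialLinearGroup (Fin n) k) : Subgroup _) : Set
      (SpecialLinearGroup (Fin n) k)).Finite := by
  haveI : NeZero (max (Fintype.card (Fin n)) 1) := ⟨(lt_of_lt_of_le one_pos (le_max_right _ _)).ne'⟩
  haveI : Finite (rootsOfUnity (max (Fintype.card (Fin n)) 1) k) := inferInstance
  haveI : Finite (Subgroup.center (SpecialLinearGroup (Fin n) k)) :=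
    Finite.of_equiv _ (center_equiv_rootsOfUnity (n := Fin n) (R := k)).symm.toEquiv
  exact Set.toFinite _

/-- An element of `SL_n(k)` with an open centraliser is central. -/
theorem cent_SL (g : SpecialLinearGroup (Fin n) k)
    (h : ((Subgroup.centralizer {g} : Subgroup _) : Set (SpecialLinearGroup (Fin n) k)) ∈ 𝓝 1) :
    g ∈ Subgroup.center (SpecialLinearGroup (Fin n) k) := by
  have key : Pairwise fun i j => Commute (single i j (1 : k)) (g : Matrix (Fin n) (Fin n) k) := by
    intro i j hij
    have hc : Continuous fun c : k => (transvection hij c : SpecialLinearGroup (Fin n) k) := by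
      refine continuous_induced_rng.2 ?_
      show Continuous fun c : k => (transvection hij c : SpecialLinearGroup (Fin n) k).1
      simp only [transvection_coe]
      refine continuous_const.add ?_
      refine continuous_pi fun a => continuous_pi fun b => ?_
      simp only [Matrix.single_apply]
      split_ifs
      · exact continuous_id
      · exact continuous_const
    have h1 : (transvection hij (0 : k) : SpecialLinearGroup (Fin n) k) = 1 := transvection_coeff_zero hij
    have h2 : ∀ᶠ c in 𝓝 (0 : k), (transvection hij c : SpecialLinearGroup (Fin n) k) ∈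
        ((Subgroup.centralizer {g} : Subgroup _) : Set (SpecialLinearGroup (Fin n) k)) := by
      refine hc.continuousAt.eventually ?_
      show ∀ᶠ x in 𝓝 (transvection hij (0 : k) : SpecialLinearGroup (Fin n) k), _
      rw [h1]
      exact h
    have h3 : ∃ c : k, c ≠ 0 ∧ (transvection hij c : SpecialLinearGroup (Fin n) k) ∈
        ((Subgroup.centralizer {g} : Subgroup _) : Set (SpecialLinearGroup (Fin n) k)) := by
      have : (𝓝[≠] (0 : k)).NeBot := inferInstance
      have h4 := (mem_nhdsWithin_of_mem_nhds h2 : _ ∈ 𝓝[≠] (0 : k))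
      obtain ⟨c, hc1, hc2⟩ := Filter.nonempty_of_mem (Filter.inter_mem h4 self_mem_nhdsWithin)
      exact ⟨c, hc2, hc1⟩
    obtain ⟨c, hc0, hc1⟩ := h3
    have h5 := Subgroup.mem_centralizer_iff.1 hc1 g rfl
    have h6 := congrArg (fun x : SpecialLinearGroup (Fin n) k => (x : Matrix (Fin n) (Fin n) k)) h5
    simp only [Matrix.SpecialLinearGroup.coe_mul, transvection_coe, Matrix.mul_add, Matrix.add_mul,
      Matrix.mul_one, Matrix.one_mul, add_right_inj] at h6
    have h7 : single i j c = c • (single i j (1 : k) : Matrix (Fin n) (Fin n) k) := by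
      rw [Matrix.smul_single, smul_eq_mul, mul_one]
    rw [h7, Matrix.mul_smul, Matrix.smul_mul] at h6
    exact (smul_right_injective _ hc0 h6).symm
  obtain ⟨r, hr⟩ := mem_range_scalar_of_commute_single key
  refine mem_center_iff.2 ⟨r, ?_, hr⟩
  have h8 : (scalar (Fin n) r).det = 1 := by rw [hr]; exact g.2
  simpa using! h8

/-- `PSL_n(k)`. -/
abbrev PS (n : ℕ) (k : Type) [Field k] : Type :=
  SpecialLinearGroup (Fin n) k ⧸ Subgroup.center (SpecialLinearGroup (Fin n) k)

theorem fac_psl_of [ProperSpace k] (h2 : 2 ≤ n) (hrec : Rec (PS n k))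
    (hhm : HM (SpecialLinearGroup (Fin n) k)) : FacS (PS n k) := by
  haveI : Nontrivial (Fin n) := Fin.nontrivial_iff_two_le.2 h2
  haveI := t2_SL (k := k) (n := n)
  haveI := lc_SL (k := k) (n := n)
  haveI := sc_SL (k := k) (n := n)
  have hf := finite_center_SL (k := k) (n := n)
  haveI hcl : IsClosed ((Subgroup.center (SpecialLinearGroup (Fin n) k) : Subgroup _) : Set
      (SpecialLinearGroup (Fin n) k)) := hf.isClosed
  exact
  { top := inferInstance
    lc := inferInstance
    sc := inferInstance
    t2 := inferInstance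
    nc := nc_quot _ hf.isCompact (nc_SL h2)
    simple := simple_quot fun N hN => H899.normal_le_center_or_top N
    cent := cent_quot hf cent_SL
    hom := hom_quot (fun A _ f => H899.hom_eq_one f) _
    recu := hrec
    hm := hhm.quot _ }

end sl

end Vale.Agent.P092.PA
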