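import Vale.Agent.P092.PA.Defs

/-!
P092, Team A (helper701): the literal statements of the abstract blocks and the abstract assembly.
The predicate `FC` stands for the structure of facts on a simple factor (`PA/Fac.lean`).
-/

set_option linter.all false

open MeasureTheory Filter Topology ContinuousLinearMap
open scoped InnerProductSpace

namespace Vale.Agent.P092.PA

/-- All conjugacy classes except that of `1` are infinite. -/
def Icc (Γ : Type) [Group Γ] : Prop := ∀ g : Γ, g ≠ 1 → Set.Infinite {y : Γ | ∃ h, y = h * g * h⁻¹}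

/-- The literal statements of the abstract blocks of Team A. -/
structure Blocks (FC : ∀ (G : Type) [Group G] [TopologicalSpace G], Prop) : Prop where
  /-- [F1], helper156 -/
  f1 : ∀ (Γ Λ K G H : Type) [Group Γ] [Countable Γ] [Group Λ] [Countable Λ] [NormedAddCommGroup K]
    [InnerProductSpace ℂ K] [CompleteSpace K] [Group G] [TopologicalSpace G] [IsTopologicalGroup G]
    [LocallyCompactSpace G] [SecondCountableTopology G] [T2Space G] [MeasurableSpace G]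
    [BorelSpace G] [Group H] [TopologicalSpace H] [IsTopologicalGroup H] [LocallyCompactSpace H]
    [SecondCountableTopology H] [T2Space H] (D : Pic Γ Λ K) (p : Γ →* G) (q : Λ →* H)
    (μ : Measure G) [μ.IsHaarMeasure] [μ.IsMulRightInvariant], Pl p → Pl q → F1 D p q μ
  /-- [FULL], helper734 -/
  full : ∀ (Γ Λ K G H : Type) [Group Γ] [Countable Γ] [Group Λ] [Countable Λ]
    [NormedAddCommGroup K]
    [InnerProductSpace ℂ K] [CompleteSpace K] [Group G] [TopologicalSpace G] [IsTopologicalGroup G]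
    [LocallyCompactSpace G] [SecondCountableTopology G] [T2Space G] [MeasurableSpace G]
    [BorelSpace G] [Group H] [TopologicalSpace H] [IsTopologicalGroup H] [LocallyCompactSpace H]
    [SecondCountableTopology H] [T2Space H] (D : Pic Γ Λ K) (p : Γ →* G) (q : Λ →* H)
    (μ : Measure G) [μ.IsHaarMeasure] [μ.IsMulRightInvariant], Pl p → Pl q → FC G → FC H →
    NeS D p q μ → Full D p q μ
  /-- [OUT], helper100 -/
  out : ∀ (Γ Λ K G H H' : Type) [Group Γ] [Countable Γ] [Group Λ] [Countable Λ]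
    [NormedAddCommGroup K]
    [InnerProductSpace ℂ K] [CompleteSpace K] [Group G] [TopologicalSpace G] [IsTopologicalGroup G]
    [LocallyCompactSpace G] [SecondCountableTopology G] [T2Space G] [MeasurableSpace G]
    [BorelSpace G] [Group H] [TopologicalSpace H] [IsTopologicalGroup H] [LocallyCompactSpace H]
    [SecondCountableTopology H] [T2Space H] [Group H'] [TopologicalSpace H']
    [IsTopologicalGroup H'] [LocallyCompactSpace H'] [SecondCountableTopology H'] [T2Space H']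
    (D : Pic Γ Λ K) (p : Γ →* G) (q : Λ →* H) (q' : Λ →* H')
    (μ : Measure G) [μ.IsHaarMeasure] [μ.IsMulRightInvariant], Pl p → Pl q → Pl q' → FC G →
    FC H → NeS D p q μ → Full D p q μ → Out D p q q' μ
  /-- [COMM], helpers 76, 796, 221 -/
  com : ∀ (Γ Λ K G₁ G₂ H₁ H₂ : Type) [Group Γ] [Countable Γ] [Group Λ] [Countable Λ]
    [NormedAddCommGroup K] [InnerProductSpace ℂ K] [CompleteSpace K]
    [Group G₁] [TopologicalSpace G₁] [IsTopologicalGroup G₁] [LocallyCompactSpace G₁]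
    [SecondCountableTopology G₁] [T2Space G₁] [MeasurableSpace G₁] [BorelSpace G₁]
    [Group G₂] [TopologicalSpace G₂] [IsTopologicalGroup G₂] [LocallyCompactSpace G₂]
    [SecondCountableTopology G₂] [T2Space G₂] [MeasurableSpace G₂] [BorelSpace G₂]
    [Group H₁] [TopologicalSpace H₁] [IsTopologicalGroup H₁] [LocallyCompactSpace H₁]
    [SecondCountableTopology H₁] [T2Space H₁] [MeasurableSpace H₁] [BorelSpace H₁]
    [Group H₂] [TopologicalSpace H₂] [IsTopologicalGroup H₂] [LocallyCompactSpace H₂]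
    [SecondCountableTopology H₂] [T2Space H₂] [MeasurableSpace H₂] [BorelSpace H₂]
    (D : Pic Γ Λ K) (p₁ : Γ →* G₁) (p₂ : Γ →* G₂) (q₁ : Λ →* H₁) (q₂ : Λ →* H₂)
    (μ₁ : Measure G₁) [μ₁.IsHaarMeasure] [μ₁.IsMulRightInvariant]
    (μ₂ : Measure G₂) [μ₂.IsHaarMeasure] [μ₂.IsMulRightInvariant] (m : Measure (H₁ × H₂)),
    Pl p₁ → Pl p₂ → Pl q₁ → Pl q₂ → FC G₁ → FC H₁ → Lat (q₁.prod q₂) m →
    NeS D p₁ q₁ μ₁ → Full D p₁ q₁ μ₁ → Com D p₁ p₂ q₁ q₂ μ₁ μ₂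
  /-- [GLUE], helper34 -/
  glu : ∀ (Γ Λ K G₁ G₂ H₁ H₂ : Type) [Group Γ] [Countable Γ] [Group Λ] [Countable Λ]
    [NormedAddCommGroup K] [InnerProductSpace ℂ K] [CompleteSpace K]
    [Group G₁] [TopologicalSpace G₁] [IsTopologicalGroup G₁] [LocallyCompactSpace G₁]
    [SecondCountableTopology G₁] [T2Space G₁] [MeasurableSpace G₁] [BorelSpace G₁]
    [Group G₂] [TopologicalSpace G₂] [IsTopologicalGroup G₂] [LocallyCompactSpace G₂]
    [SecondCountableTopology G₂] [T2Space G₂] [MeasurableSpace G₂] [BorelSpace G₂]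
    [Group H₁] [TopologicalSpace H₁] [IsTopologicalGroup H₁] [LocallyCompactSpace H₁]
    [SecondCountableTopology H₁] [T2Space H₁]
    [Group H₂] [TopologicalSpace H₂] [IsTopologicalGroup H₂] [LocallyCompactSpace H₂]
    [SecondCountableTopology H₂] [T2Space H₂]
    (D : Pic Γ Λ K) (p₁ : Γ →* G₁) (p₂ : Γ →* G₂) (q₁ : Λ →* H₁) (q₂ : Λ →* H₂)
    (μ₁ : Measure G₁) [μ₁.IsHaarMeasure] [μ₁.IsMulRightInvariant]
    (μ₂ : Measure G₂) [μ₂.IsHaarMeasure] [μ₂.IsMulRightInvariant],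
    Pl p₁ → Pl p₂ → Pl q₁ → Pl q₂ →
    (∀ C : Set (G₁ × G₂), IsCompact C → {g | (p₁ g, p₂ g) ∈ C}.Finite) →
    F1 D p₁ q₁ μ₁ → F1 D p₂ q₂ μ₂ → NeS D p₁ q₁ μ₁ → NeS D p₂ q₂ μ₂ →
    Com D p₁ p₂ q₁ q₂ μ₁ μ₂ → Out D p₁ q₁ q₂ μ₁ → Glu D
  /-- [END], helper87 -/
  fin : ∀ (Γ Λ K : Type) [Group Γ] [Countable Γ] [Group Λ] [Countable Λ]
    [NormedAddCommGroup K] [InnerProductSpace ℂ K] [CompleteSpace K] (D : Pic Γ Λ K),
    Icc Γ → Icc Λ → Glu D → Can D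
  /-- [MATCH], helper175 -/
  mat : ∀ (Γ Λ K G H₁ H₂ : Type) [Group Γ] [Countable Γ] [Group Λ] [Countable Λ]
    [NormedAddCommGroup K] [InnerProductSpace ℂ K] [CompleteSpace K]
    [Group G] [TopologicalSpace G] [IsTopologicalGroup G] [LocallyCompactSpace G]
    [SecondCountableTopology G] [T2Space G] [MeasurableSpace G] [BorelSpace G]
    [Group H₁] [TopologicalSpace H₁] [IsTopologicalGroup H₁] [LocallyCompactSpace H₁]
    [SecondCountableTopology H₁] [T2Space H₁]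
    [Group H₂] [TopologicalSpace H₂] [IsTopologicalGroup H₂] [LocallyCompactSpace H₂]
    [SecondCountableTopology H₂] [T2Space H₂]
    (D : Pic Γ Λ K) (p : Γ →* G) (q₁ : Λ →* H₁) (q₂ : Λ →* H₂)
    (μ : Measure G) [μ.IsHaarMeasure] [μ.IsMulRightInvariant],
    Pl p → Pl q₁ → Pl q₂ → FC G → FC H₁ → FC H₂ →
    (∀ C : Set (H₁ × H₂), IsCompact C → {v | (q₁ v, q₂ v) ∈ C}.Finite) →
    NeS D p q₁ μ → NeS D p q₂ μ → False

section

variable {FC : ∀ (G : Type) [Group G] [TopologicalSpace G], Prop}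
variable {Γ Λ K : Type} [Group Γ] [Countable Γ] [Group Λ] [Countable Λ] [NormedAddCommGroup K]
  [InnerProductSpace ℂ K] [CompleteSpace K]
  {G₁ G₂ H₁ H₂ : Type}
  [Group G₁] [TopologicalSpace G₁] [IsTopologicalGroup G₁] [LocallyCompactSpace G₁]
  [SecondCountableTopology G₁] [T2Space G₁] [MeasurableSpace G₁] [BorelSpace G₁]
  [Group G₂] [TopologicalSpace G₂] [IsTopologicalGroup G₂] [LocallyCompactSpace G₂]
  [SecondCountableTopology G₂] [T2Space G₂] [MeasurableSpace G₂] [BorelSpace G₂]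
  [Group H₁] [TopologicalSpace H₁] [IsTopologicalGroup H₁] [LocallyCompactSpace H₁]
  [SecondCountableTopology H₁] [T2Space H₁] [MeasurableSpace H₁] [BorelSpace H₁]
  [Group H₂] [TopologicalSpace H₂] [IsTopologicalGroup H₂] [LocallyCompactSpace H₂]
  [SecondCountableTopology H₂] [T2Space H₂] [MeasurableSpace H₂] [BorelSpace H₂]

/-- The matched case. -/
theorem Blocks.matched (B : Blocks FC) (D : Pic Γ Λ K)
    {p₁ : Γ →* G₁} {p₂ : Γ →* G₂} {q₁ : Λ →* H₁} {q₂ : Λ →* H₂}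
    (μ₁ : Measure G₁) [μ₁.IsHaarMeasure] [μ₁.IsMulRightInvariant]
    (μ₂ : Measure G₂) [μ₂.IsHaarMeasure] [μ₂.IsMulRightInvariant] (m : Measure (H₁ × H₂))
    (hp₁ : Pl p₁) (hp₂ : Pl p₂) (hq₁ : Pl q₁) (hq₂ : Pl q₂) (fG : FC G₁) (fH : FC H₁)
    (hp : ∀ C : Set (G₁ × G₂), IsCompact C → {g | (p₁ g, p₂ g) ∈ C}.Finite)
    (hq : Lat (q₁.prod q₂) m) (iΓ : Icc Γ) (iΛ : Icc Λ)
    (n₁ : NeS D p₁ q₁ μ₁) (n₂ : NeS D p₂ q₂ μ₂) : Can D := by
  have f₁ := B.f1 _ _ _ _ _ D p₁ q₁ μ₁ hp₁ hq₁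
  have f₂ := B.f1 _ _ _ _ _ D p₂ q₂ μ₂ hp₂ hq₂
  have u₁ := B.full _ _ _ _ _ D p₁ q₁ μ₁ hp₁ hq₁ fG fH n₁
  have o₁ := B.out _ _ _ _ _ _ D p₁ q₁ q₂ μ₁ hp₁ hq₁ hq₂ fG fH n₁ u₁
  have c := B.com _ _ _ _ _ _ _ D p₁ p₂ q₁ q₂ μ₁ μ₂ m hp₁ hp₂ hq₁ hq₂ fG fH hq n₁ u₁
  exact B.fin _ _ _ D iΓ iΛ
    (B.glu _ _ _ _ _ _ _ D p₁ p₂ q₁ q₂ μ₁ μ₂ hp₁ hp₂ hq₁ hq₂ hp f₁ f₂ n₁ n₂ c o₁)

/-- `Lat` with the two factors exchanged. -/
theorem Lat.swap {q₁ : Λ →* H₁} {q₂ : Λ →* H₂} {m : Measure (H₁ × H₂)}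
    (h : Lat (q₁.prod q₂) m) : Lat (q₂.prod q₁) (m.map Prod.swap) := by
  have hs : MeasurableEmbedding (Prod.swap : H₁ × H₂ → H₂ × H₁) :=
    MeasurableEquiv.prodComm.measurableEmbedding
  refine ⟨?_, ?_, ?_, ?_⟩
  · have := h.prob
    exact Measure.isProbabilityMeasure_map hs.measurable.aemeasurable
  · rintro F hF ⟨C, hC⟩ hinv k
    rw [hs.integral_map, hs.integral_map]
    have h1 := h.inv (fun x => F x.swap) (hF.comp continuous_swap) ⟨C, fun x => hC _⟩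
      (fun v x => hinv v x.swap) k.swap
    exact h1
  · rintro F hF ⟨C, hC⟩ h0 hinv hI x
    rw [hs.integral_map] at hI
    have h1 := h.faith (fun x => F x.swap) (hF.comp continuous_swap) ⟨C, fun x => hC _⟩
      (fun x => h0 _) (fun v x => hinv v x.swap) hI x.swap
    exact h1
  · intro C hC
    have h1 := h.fin (Prod.swap ⁻¹' C) ?_
    · exact h1
    · have h2 : Prod.swap ⁻¹' C = Prod.swap '' C := by
        rw [Set.image_swap_eq_preimage_swap]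
      rw [h2]
      exact hC.image continuous_swap

/-- The abstract theorem: both ways to match. -/
theorem Blocks.can (B : Blocks FC) (D : Pic Γ Λ K)
    {p₁ : Γ →* G₁} {p₂ : Γ →* G₂} {q₁ : Λ →* H₁} {q₂ : Λ →* H₂}
    (μ₁ : Measure G₁) [μ₁.IsHaarMeasure] [μ₁.IsMulRightInvariant]
    (μ₂ : Measure G₂) [μ₂.IsHaarMeasure] [μ₂.IsMulRightInvariant] (m : Measure (H₁ × H₂))
    (hp₁ : Pl p₁) (hp₂ : Pl p₂) (hq₁ : Pl q₁) (hq₂ : Pl q₂) (fG₁ : FC G₁) (fG₂ : FC G₂)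
    (fH₁ : FC H₁) (fH₂ : FC H₂)
    (hp : ∀ C : Set (G₁ × G₂), IsCompact C → {g | (p₁ g, p₂ g) ∈ C}.Finite)
    (hq : Lat (q₁.prod q₂) m) (iΓ : Icc Γ) (iΛ : Icc Λ)
    (s₁ : NeS D p₁ q₁ μ₁ ∨ NeS D p₂ q₁ μ₂) (s₂ : NeS D p₁ q₂ μ₁ ∨ NeS D p₂ q₂ μ₂) : Can D := by
  have hq' : ∀ C : Set (H₁ × H₂), IsCompact C → {v | (q₁ v, q₂ v) ∈ C}.Finite := hq.fin
  rcases s₁ with s₁ | s₁
  · rcases s₂ with s₂ | s₂
    · exact (B.mat _ _ _ _ _ _ D p₁ q₁ q₂ μ₁ hp₁ hq₁ hq₂ fG₁ fH₁ fH₂ hq' s₁ s₂).elim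
    · exact B.matched D μ₁ μ₂ m hp₁ hp₂ hq₁ hq₂ fG₁ fH₁ hp hq iΓ iΛ s₁ s₂
  · rcases s₂ with s₂ | s₂
    · exact B.matched D μ₁ μ₂ _ hp₁ hp₂ hq₂ hq₁ fG₁ fH₂ hp hq.swap iΓ iΛ s₂ s₁
    · exact (B.mat _ _ _ _ _ _ D p₂ q₁ q₂ μ₂ hp₂ hq₁ hq₂ fG₂ fH₁ fH₂ hq' s₁ s₂).elim

end

end Vale.Agent.P092.PA
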