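import Vale.Agent.P092.PA.Blocks
import Vale.Agent.P092.PA.Fac
import Vale.Agent.P092.H87.PAFin
import Vale.Agent.P092.H175.Match
import Vale.Agent.P092.H734.FullPA

/-!
P092, Team A (helper701): the blocks which are proved, plugged in.
-/

set_option linter.all false

open MeasureTheory Filter Topology ContinuousLinearMap
open scoped InnerProductSpace

namespace Vale.Agent.P092.PA

/-- The literal statement of [OUT]. -/
def OutStmt : Prop :=
  ∀ (Γ Λ K G H H' : Type) [Group Γ] [Countable Γ] [Group Λ] [Countable Λ]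
    [NormedAddCommGroup K]
    [InnerProductSpace ℂ K] [CompleteSpace K] [Group G] [TopologicalSpace G] [IsTopologicalGroup G]
    [LocallyCompactSpace G] [SecondCountableTopology G] [T2Space G] [MeasurableSpace G]
    [BorelSpace G] [Group H] [TopologicalSpace H] [IsTopologicalGroup H] [LocallyCompactSpace H]
    [SecondCountableTopology H] [T2Space H] [Group H'] [TopologicalSpace H']
    [IsTopologicalGroup H'] [LocallyCompactSpace H'] [SecondCountableTopology H'] [T2Space H']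
    (D : Pic Γ Λ K) (p : Γ →* G) (q : Λ →* H) (q' : Λ →* H')
    (μ : Measure G) [μ.IsHaarMeasure] [μ.IsMulRightInvariant], Pl p → Pl q → Pl q' → FacS G →
    FacS H → NeS D p q μ → Full D p q μ → Out D p q q' μ

/-- The literal statement of [COMM]. -/
def ComStmt : Prop :=
  ∀ (Γ Λ K G₁ G₂ H₁ H₂ : Type) [Group Γ] [Countable Γ] [Group Λ] [Countable Λ]
    [NormedAddCommGroup K] [InnerProductSpace ℂ K] [CompleteSpace K]
    [Group G₁] [TopologicalSpace G₁] [IsTopologicalGroup G₁] [LocallyCompactSpace G₁]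
    [SecondCountableTopology G₁] [T2Space G₁] [MeasurableSpace G₁] [BorelSpace G₁]
    [Group G₂] [TopologicalSpace G₂] [IsTopologicalGroup G₂] [LocallyCompactSpace G₂]
    [SecondCountableTopology G₂] [T2Space G₂] [MeasurableSpace G₂] [BorelSpace G₂]
    [Group H₁] [TopologicalSpace H₁] [IsTopologicalGroup H₁] [LocallyCompactSpace H₁]
    [SecondCountableTopology H₁] [T2Space H₁] [MeasurableSpace H₁] [BorelSpace H₁]
    [Group H₂] [TopologicalSpace H₂] [IsTopologicalGroup H₂] [LocallyCompactSpace H₂]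
    [SecondCountableTopology H₂] [T2Space H₂] [MeasurableSpace H₂] [BorelSpace H₂]
    (D : Pic Γ Λ K) (p₁ : Γ →* G₁) (p₂ : Γ →* G₂) (q₁ : Λ →* H₁) (q₂ : Λ →* H₂)
    (μ₁ : Measure G₁) [μ₁.IsHaarMeasure] [μ₁.IsMulRightInvariant]
    (μ₂ : Measure G₂) [μ₂.IsHaarMeasure] [μ₂.IsMulRightInvariant] (m : Measure (H₁ × H₂)),
    Pl p₁ → Pl p₂ → Pl q₁ → Pl q₂ → FacS G₁ → FacS H₁ → Lat (q₁.prod q₂) m →
    NeS D p₁ q₁ μ₁ → Full D p₁ q₁ μ₁ → Com D p₁ p₂ q₁ q₂ μ₁ μ₂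

/-- The literal statement of [GLUE]. -/
def GluStmt : Prop :=
  ∀ (Γ Λ K G₁ G₂ H₁ H₂ : Type) [Group Γ] [Countable Γ] [Group Λ] [Countable Λ]
    [NormedAddCommGroup K] [InnerProductSpace ℂ K] [CompleteSpace K]
    [Group G₁] [TopologicalSpace G₁] [IsTopologicalGroup G₁] [LocallyCompactSpace G₁]
    [SecondCountableTopology G₁] [T2Space G₁] [MeasurableSpace G₁] [BorelSpace G₁]
    [Group G₂] [TopologicalSpace G₂] [IsTopologicalGroup G₂] [LocallyCompactSpace G₂]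
    [SecondCountableTopology G₂] [T2Space G₂] [MeasurableSpace G₂] [BorelSpace G₂]
    [Group H₁] [TopologicalSpace H₁] [IsTopologicalGroup H₁] [LocallyCompactSpace H₁]
    [SecondCountableTopology H₁] [T2Space H₁]
    [Group H₂] [TopologicalSpace H₂] [IsTopologicalGroup H₂] [LocallyCompactSpace H₂]
    [SecondCountableTopology H₂] [T2Space H₂]
    (D : Pic Γ Λ K) (p₁ : Γ →* G₁) (p₂ : Γ →* G₂) (q₁ : Λ →* H₁) (q₂ : Λ →* H₂)
    (μ₁ : Measure G₁) [μ₁.IsHaarMeasure] [μ₁.IsMulRightInvariant]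
    (μ₂ : Measure G₂) [μ₂.IsHaarMeasure] [μ₂.IsMulRightInvariant],
    Pl p₁ → Pl p₂ → Pl q₁ → Pl q₂ →
    (∀ C : Set (G₁ × G₂), IsCompact C → {g | (p₁ g, p₂ g) ∈ C}.Finite) →
    F1 D p₁ q₁ μ₁ → F1 D p₂ q₂ μ₂ → NeS D p₁ q₁ μ₁ → NeS D p₂ q₂ μ₂ →
    Com D p₁ p₂ q₁ q₂ μ₁ μ₂ → Out D p₁ q₁ q₂ μ₁ → Glu D

/-- The blocks, given the three which are not plugged in yet. -/
theorem blocks_of (hout : OutStmt) (hcom : ComStmt) (hglu : GluStmt) : Blocks FacS where
  f1 := by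
    intro Γ Λ K G H _ _ _ _ _ _ _ _ _ _ _ _ _ _ _ _ _ _ _ _ _ D p q μ _ _ hp hq
    intro a b ha hb ζ η
    exact H175.f1' (κ := q) D.tfrm hq.dense (fun v hv => H175.not_open_of_noc hq.noc v hv)
      a b ha hb ζ η
  full := by
    intro Γ Λ K G H _ _ _ _ _ _ _ _ _ _ _ _ _ _ _ _ _ _ _ _ _ D p q μ _ _ hp hq hG hH hne
    haveI := hG.noncompactSpace
    exact H734.full_PA D p q μ hp hq (fun N hN _ => hG.simple N hN) hne
  out := hout
  com := hcom
  glu := hglu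
  fin := H87.fin
  mat := by
    intro Γ Λ K G H₁ H₂ _ _ _ _ _ _ _ _ _ _ _ _ _ _ _ _ _ _ _ _ _ _ _ _ _ _ _ D p q₁ q₂ μ _ _
      hp hq₁ hq₂ hG hH₁ hH₂ hpr n₁ n₂
    exact H175.mat Γ Λ K G H₁ H₂ D p q₁ q₂ μ hp hq₁ hq₂ hG.nc hH₁.nc hH₂.hm hpr n₁ n₂

end Vale.Agent.P092.PA
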