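import Vale.Agent.P092.PA.Main
import Vale.Agent.P092.PA.FacInst
import Vale.Agent.P092.H264.S2Fin
import Vale.Agent.P092.H328.Psl
import Vale.Agent.P092.H259.Tran

/-!
P092, Team A (helper701): from the abstract theorem to lattices in products of two groups `SL_n(k)`.
-/

set_option linter.all false

open MeasureTheory Filter Topology ContinuousLinearMap
open scoped InnerProductSpace

namespace Vale.Agent.P092.PA

open Vale.Agent.P092.H264 (SL mkP)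

/-- The picture with the groups exchanged. -/
def Pic.swp {Γ Λ K : Type} [Group Γ] [Group Λ] [NormedAddCommGroup K] [InnerProductSpace ℂ K]
    [CompleteSpace K] (D : Pic Γ Λ K) : Pic Λ Γ K :=
  ⟨D.V, D.ρ, D.Ω, D.hV, D.hρ, fun v g => (D.comm g v).symm⟩

/-- `Can` is symmetric. -/
theorem can_of_swp {Γ Λ K : Type} [Group Γ] [Group Λ] [NormedAddCommGroup K]
    [InnerProductSpace ℂ K] [CompleteSpace K] (D : Pic Γ Λ K) (h : Can D.swp) : Can D := by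
  obtain ⟨ζ, δ, χ, h1, h2, h3, h4, h5⟩ := h
  have h2' : ∀ g : Γ, g ≠ 1 → ⟪ζ, D.ρ g ζ⟫_ℂ = 0 := h2
  have h5' : ∀ v : Λ, D.V v ζ = χ v • D.ρ (δ v) ζ := h5
  have hζ : ζ ≠ 0 := by
    intro h0
    rw [h0, norm_zero] at h1
    exact zero_ne_one h1
  have hδ1 : δ 1 = 1 := by
    by_contra hne
    have e1 := h5' 1
    have e2 : ⟪ζ, D.V 1 ζ⟫_ℂ = 0 := by rw [e1, inner_smul_right, h2' _ hne, mul_zero]
    rw [map_one] at e2
    exact hζ (inner_self_eq_zero.1 e2)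
  set e := Equiv.ofBijective δ h3 with he
  have he' : ∀ g, δ (e.symm g) = g := fun g => e.apply_symm_apply g
  refine ⟨ζ, e.symm, fun g => (χ (e.symm g))⁻¹, h1, ?_, e.symm.bijective, ?_, ?_⟩
  · intro v hv
    have h6 : δ v ≠ 1 := fun h => hv (h3.1 (by rw [h, hδ1]))
    rw [h5', inner_smul_right, h2' _ h6, mul_zero]
  · intro g
    have h7 : ‖χ (e.symm g)‖ = 1 := h4 _
    rw [norm_inv, h7, inv_one]
  · intro g
    have h7 : ‖χ (e.symm g)‖ = 1 := h4 _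
    have h8 : χ (e.symm g) ≠ 0 := by
      intro h0
      rw [h0, norm_zero] at h7
      exact zero_ne_one h7
    rw [h5', he', smul_smul, inv_mul_cancel₀ h8, one_smul]

theorem locK_of_st {k : Type} [NontriviallyNormedField k] (h : H515.St.LocK k) : H933.LocK k := by
  cases h with
  | real φ h => exact .real φ h
  | cplx φ h => exact .cplx φ h
  | ultra h => exact .ultra h

/-- Descent of a nonzero smooth element to the quotient by the centre of the source factor. -/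
theorem NeS.quot {Γ Λ K G H : Type} [Group Γ] [Countable Γ] [Group Λ] [NormedAddCommGroup K]
    [InnerProductSpace ℂ K] [CompleteSpace K] [Group G] [TopologicalSpace G] [IsTopologicalGroup G]
    [LocallyCompactSpace G] [SecondCountableTopology G] [T2Space G]
    [MeasurableSpace G] [BorelSpace G] [Group H] [TopologicalSpace H] [IsTopologicalGroup H]
    (D : Pic Γ Λ K) {p : Γ →* G} {q : Λ →* H} {μ : Measure G} [μ.IsHaarMeasure]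
    (hd : DenseRange q) (Z : Subgroup H) [Z.Normal] [Finite Z] (h : NeS D p q μ) :
    NeS D p ((QuotientGroup.mk' Z).comp q) μ := by
  obtain ⟨b, hb, h0⟩ := h
  exact H328.exists_smo_quot D.frm hd Z hb h0

section sl

variable {k₁ k₂ l₁ l₂ : Type} [NontriviallyNormedField k₁] [ProperSpace k₁]
  [NontriviallyNormedField k₂] [ProperSpace k₂] [NontriviallyNormedField l₁] [ProperSpace l₁]
  [NontriviallyNormedField l₂] [ProperSpace l₂]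
  {m₁ m₂ n₁ n₂ : ℕ}
  {K : Type} [NormedAddCommGroup K] [InnerProductSpace ℂ K] [CompleteSpace K]

/-- The theorem when the rank of the target is at most that of the source. -/
theorem can_le (B : Blocks FacS) (hk₁ : H933.LocK k₁) (hk₂ : H933.LocK k₂) (hl₁ : H933.LocK l₁)
    (hl₂ : H933.LocK l₂) (hm₁ : 1 ≤ m₁) (hm₂ : 1 ≤ m₂) (hn₁ : 1 ≤ n₁) (hn₂ : 1 ≤ n₂)
    (hr : m₁ + m₂ ≤ n₁ + n₂) (Γ : Subgroup (SL m₁ k₁ × SL m₂ k₂))
    (Λ : Subgroup (SL n₁ l₁ × SL n₂ l₂)) (hΓ : H515.St.IsLattice Γ) (hΛ : H515.St.IsLattice Λ)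
    (iΓ : Icc Γ) (iΛ : Icc Λ)
    (dΓ₁ : DenseRange fun γ : Γ => (γ : SL m₁ k₁ × SL m₂ k₂).1)
    (dΓ₂ : DenseRange fun γ : Γ => (γ : SL m₁ k₁ × SL m₂ k₂).2)
    (dΛ₁ : DenseRange fun γ : Λ => (γ : SL n₁ l₁ × SL n₂ l₂).1)
    (dΛ₂ : DenseRange fun γ : Λ => (γ : SL n₁ l₁ × SL n₂ l₂).2)
    (D : Pic Γ Λ K) : Can D := by
  haveI := hΓ.disc
  haveI := hΛ.disc
  haveI : Countable Γ := H259.countable_of_disc Γ
  haveI : Countable Λ := H259.countable_of_disc Λ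
  letI a₁ : MeasurableSpace (H264.PS m₁ k₁) := borel _
  letI a₂ : MeasurableSpace (H264.PS m₂ k₂) := borel _
  letI a₃ : MeasurableSpace (H264.PS n₁ l₁) := borel _
  letI a₄ : MeasurableSpace (H264.PS n₂ l₂) := borel _
  haveI b₁ : BorelSpace (H264.PS m₁ k₁) := ⟨rfl⟩
  haveI b₂ : BorelSpace (H264.PS m₂ k₂) := ⟨rfl⟩
  haveI b₃ : BorelSpace (H264.PS n₁ l₁) := ⟨rfl⟩
  haveI b₄ : BorelSpace (H264.PS n₂ l₂) := ⟨rfl⟩
  have fG₁ : FacS (H264.PS m₁ k₁) := facS_psl hk₁ (n := m₁ + 1) (by omega)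
  have fG₂ : FacS (H264.PS m₂ k₂) := facS_psl hk₂ (n := m₂ + 1) (by omega)
  have fH₁ : FacS (H264.PS n₁ l₁) := facS_psl hl₁ (n := n₁ + 1) (by omega)
  have fH₂ : FacS (H264.PS n₂ l₂) := facS_psl hl₂ (n := n₂ + 1) (by omega)
  obtain ⟨μ₁, hμ₁⟩ : ∃ μ : Measure (H264.PS m₁ k₁), μ.IsHaarMeasure :=
    ⟨Measure.haar, inferInstance⟩
  obtain ⟨μ₂, hμ₂⟩ : ∃ μ : Measure (H264.PS m₂ k₂), μ.IsHaarMeasure :=
    ⟨Measure.haar, inferInstance⟩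
  haveI := fG₁.isMulRightInvariant μ₁
  haveI := fG₂.isMulRightInvariant μ₂
  have cG₁ := H259.cf_SL (m₁ + 1) k₁
  have cG₂ := H259.cf_SL (m₂ + 1) k₂
  have cH₁ := H259.cf_SL (n₁ + 1) l₁
  have cH₂ := H259.cf_SL (n₂ + 1) l₂
  have pG₁ := H259.pl₁ cG₁ cG₂ Γ hΓ.disc iΓ dΓ₁ dΓ₂
  have pG₂ := H259.pl₂ cG₁ cG₂ Γ hΓ.disc iΓ dΓ₁ dΓ₂
  have pH₁ := H259.pl₁ cH₁ cH₂ Λ hΛ.disc iΛ dΛ₁ dΛ₂
  have pH₂ := H259.pl₂ cH₁ cH₂ Λ hΛ.disc iΛ dΛ₁ dΛ₂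
  obtain ⟨m, hm⟩ := H259.exists_lat_places cH₁ cH₂ hΛ pH₁.inj
  obtain ⟨s₁, s₂⟩ := H264.s2 hk₁ hk₂ hl₁ hl₂ hn₁ hn₂ hr hΓ.disc ⟨hΛ.disc, hΛ.covol⟩ D μ₁ μ₂
  haveI := cH₁.fin
  haveI := cH₂.fin
  have s₁' : NeS D (H259.p₁ Γ) (H259.p₁ Λ) μ₁ ∨ NeS D (H259.p₂ Γ) (H259.p₁ Λ) μ₂ :=
    s₁.imp (fun h => NeS.quot D dΛ₁ _ h) (fun h => NeS.quot D dΛ₁ _ h)
  have s₂' : NeS D (H259.p₁ Γ) (H259.p₂ Λ) μ₁ ∨ NeS D (H259.p₂ Γ) (H259.p₂ Λ) μ₂ :=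
    s₂.imp (fun h => NeS.quot D dΛ₂ _ h) (fun h => NeS.quot D dΛ₂ _ h)
  exact B.can D μ₁ μ₂ m pG₁ pG₂ pH₁ pH₂ fG₁ fG₂ fH₁ fH₂
    (fun C hC => H259.finite_pp cG₁ cG₂ Γ hC) hm iΓ iΛ s₁' s₂'

end sl

/-- The theorem for subgroups of products of two groups `SL_n(k)`. -/
theorem can_sub (B : Blocks FacS) (k₁ k₂ l₁ l₂ : Type) [NontriviallyNormedField k₁]
    [NontriviallyNormedField k₂] [NontriviallyNormedField l₁] [NontriviallyNormedField l₂]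
    [ProperSpace k₁] [ProperSpace k₂] [ProperSpace l₁] [ProperSpace l₂] (hk₁ : H515.St.LocK k₁)
    (hk₂ : H515.St.LocK k₂) (hl₁ : H515.St.LocK l₁) (hl₂ : H515.St.LocK l₂) (m₁ m₂ n₁ n₂ : ℕ)
    (hm₁ : 2 ≤ m₁) (hm₂ : 2 ≤ m₂) (hn₁ : 2 ≤ n₁) (hn₂ : 2 ≤ n₂)
    (Γ : Subgroup (Matrix.SpecialLinearGroup (Fin m₁) k₁ × Matrix.SpecialLinearGroup (Fin m₂) k₂))
    (Λ : Subgroup (Matrix.SpecialLinearGroup (Fin n₁) l₁ × Matrix.SpecialLinearGroup (Fin n₂) l₂))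
    (hΓ : H515.St.IsLattice Γ) (hΛ : H515.St.IsLattice Λ) (iΓ : Icc Γ) (iΛ : Icc Λ)
    (dΓ₁ : DenseRange fun γ : Γ => (γ : Matrix.SpecialLinearGroup (Fin m₁) k₁ ×
      Matrix.SpecialLinearGroup (Fin m₂) k₂).1)
    (dΓ₂ : DenseRange fun γ : Γ => (γ : Matrix.SpecialLinearGroup (Fin m₁) k₁ ×
      Matrix.SpecialLinearGroup (Fin m₂) k₂).2)
    (dΛ₁ : DenseRange fun γ : Λ => (γ : Matrix.SpecialLinearGroup (Fin n₁) l₁ ×
      Matrix.SpecialLinearGroup (Fin n₂) l₂).1)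
    (dΛ₂ : DenseRange fun γ : Λ => (γ : Matrix.SpecialLinearGroup (Fin n₁) l₁ ×
      Matrix.SpecialLinearGroup (Fin n₂) l₂).2)
    (K : Type) [NormedAddCommGroup K] [InnerProductSpace ℂ K] [CompleteSpace K]
    (D : Pic Γ Λ K) : Can D := by
  obtain ⟨m₁, rfl⟩ : ∃ n, m₁ = n + 1 := ⟨m₁ - 1, by omega⟩
  obtain ⟨m₂, rfl⟩ : ∃ n, m₂ = n + 1 := ⟨m₂ - 1, by omega⟩
  obtain ⟨n₁, rfl⟩ : ∃ n, n₁ = n + 1 := ⟨n₁ - 1, by omega⟩
  obtain ⟨n₂, rfl⟩ : ∃ n, n₂ = n + 1 := ⟨n₂ - 1, by omega⟩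
  rcases le_total (m₁ + m₂) (n₁ + n₂) with hr | hr
  · exact can_le B (locK_of_st hk₁) (locK_of_st hk₂) (locK_of_st hl₁) (locK_of_st hl₂)
      (by omega) (by omega) (by omega) (by omega) hr Γ Λ hΓ hΛ iΓ iΛ dΓ₁ dΓ₂ dΛ₁ dΛ₂ D
  · exact can_of_swp D (can_le B (locK_of_st hl₁) (locK_of_st hl₂) (locK_of_st hk₁)
      (locK_of_st hk₂) (by omega) (by omega) (by omega) (by omega) hr Λ Γ hΛ hΓ iΛ iΓ dΛ₁ dΛ₂
      dΓ₁ dΓ₂ D.swp)

/-- **The main theorem** (`t = 1`). -/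
theorem final1_of (B : Blocks FacS) (Γ Λ : Type) [Group Γ] [Group Λ]
    (hΓ : St.LocalProductLattice Γ) (hΛ : St.LocalProductLattice Λ)
    (θ : H160.St.StarIso Γ Λ) : H160.St.Canonical θ :=
  H259.final_of_sub (can_sub B) Γ Λ hΓ hΛ θ

end Vale.Agent.P092.PA
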