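import Vale.Agent.P092.PA.Plug
import Vale.Agent.P092.PA.TopOf
import Vale.Agent.P092.H796.APos

/-!
P092, Team A (helper701): the block [COMM] (A-POS by helper796, the rest by helper76), and all
blocks.
-/

set_option linter.all false

open MeasureTheory Filter Topology ContinuousLinearMap
open scoped InnerProductSpace

namespace Vale.Agent.P092.PA

theorem comStmt : ComStmt := by
  intro Γ Λ K G₁ G₂ H₁ H₂ _ _ _ _ _ _ _ _ _ _ _ _ _ _ _ _ _ _ _ _ _ _ _ _ _ _ _ _ _ _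
    _ _ _ _ _ _ _ _ _ D p₁ p₂ q₁ q₂ μ₁ _ _ μ₂ _ _ m hp₁ hp₂ hq₁ hq₂ hG₁ hH₁ hm hne hfull
  exact H76.com_of_pos D p₁ p₂ q₁ q₂ μ₁ μ₂ m hp₁ hq₁ hq₂ hG₁.recu hm hne hfull
    (H796.apos D p₁ p₂ q₁ q₂ μ₁ μ₂ m hq₁ hq₂ hm hne hfull)

/-- All blocks. -/
theorem blocks : Blocks FacS := blocks_of_com comStmt

end Vale.Agent.P092.PA
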