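import Vale.Agent.P092.PA.Defs
import Vale.Agent.P092.H515.LatSl
import Vale.Agent.P092.H515.RkDef

/-!
P092, Team A (helper701): `Lat` from the literal definition of a lattice; `Lat` in a quotient.
-/

set_option linter.all false

open MeasureTheory Filter Topology Set
open scoped Pointwise

namespace Vale.Agent.P092.PA

open Vale.Agent.P092.H515

section main

variable {E : Type} [Group E] [TopologicalSpace E] [IsTopologicalGroup E] [LocallyCompactSpace E]
  [SecondCountableTopology E] [T2Space E] [MeasurableSpace E] [BorelSpace E]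

/-- Nonempty open sets have positive measure for an invariant probability. -/
theorem open_pos_of_inv {Λ : Subgroup E} [MeasurableSpace (E ⧸ Λ)] [BorelSpace (E ⧸ Λ)]
    {ν : Measure (E ⧸ Λ)} [IsProbabilityMeasure ν] (hν : ∀ g : E, ν.map (fun x => g • x) = ν)
    {U : Set (E ⧸ Λ)} (hU : IsOpen U) (hne : U.Nonempty) : ν U ≠ 0 := by
  intro h0
  obtain ⟨x₀, hx₀⟩ := hne
  obtain ⟨t, ht⟩ := TopologicalSpace.exists_countable_dense E
  have hcov : (Set.univ : Set (E ⧸ Λ)) ⊆ ⋃ g ∈ t, (fun x => g • x) ⁻¹' U := by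
    intro y _
    obtain ⟨a, rfl⟩ := QuotientGroup.mk_surjective y
    obtain ⟨b, rfl⟩ := QuotientGroup.mk_surjective x₀
    have h1 : IsOpen {g : E | ((g * a : E) : E ⧸ Λ) ∈ U} :=
      hU.preimage (QuotientGroup.continuous_mk.comp (continuous_id.mul continuous_const))
    have h2 : {g : E | ((g * a : E) : E ⧸ Λ) ∈ U}.Nonempty :=
      ⟨b * a⁻¹, by rw [Set.mem_setOf_eq, inv_mul_cancel_right]; exact hx₀⟩
    obtain ⟨g, hgt, hg⟩ := ht.2.exists_mem_open h1 h2
    exact Set.mem_iUnion₂.2 ⟨g, hgt, hg⟩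
  have h1 : ν Set.univ ≤ 0 := by
    refine (measure_mono hcov).trans ?_
    refine (measure_biUnion_le _ ht.1 _).trans ?_
    refine le_of_eq ?_
    rw [ENNReal.tsum_eq_zero]
    intro g
    have h2 : ν ((fun x => (g : E) • x) ⁻¹' U) = ν U := by
      rw [← Measure.map_apply (continuous_const_smul (g : E)).measurable hU.measurableSet, hν]
    rw [h2, h0]
  rw [measure_univ] at h1
  exact (lt_irrefl (0 : ENNReal)) (lt_of_lt_of_le zero_lt_one h1)

/-- A left `Λ`-invariant function on `E`, inverted, descends to `E ⧸ Λ`. -/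
theorem exists_desc {α : Type} (Λ : Subgroup E) (F : E → α) (hF : ∀ (v : Λ) h, F (v * h) = F h) :
    ∃ F' : E ⧸ Λ → α, ∀ x : E, F' x = F x⁻¹ := by
  refine ⟨fun y => Quotient.liftOn' y (fun x => F x⁻¹) fun a b hab => ?_, fun x => rfl⟩
  have h1 : a⁻¹ * b ∈ Λ := QuotientGroup.leftRel_apply.1 hab
  have h2 : a⁻¹ = ((⟨a⁻¹ * b, h1⟩ : Λ) : E) * b⁻¹ := by
    show a⁻¹ = a⁻¹ * b * b⁻¹
    rw [mul_inv_cancel_right]
  show F a⁻¹ = F b⁻¹
  rw [h2, hF]

theorem lat_of_isLattice (Λ : Subgroup E) (h : IsLattice Λ) :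
    ∃ m : Measure E, Lat Λ.subtype m := by
  haveI := h.disc
  letI : MeasurableSpace (E ⧸ Λ) := borel _
  haveI : BorelSpace (E ⧸ Λ) := ⟨rfl⟩
  obtain ⟨ν, hP, hν⟩ := h.exists_prob
  haveI := hP
  have hsm : Measurable fun x : E ⧸ Λ => (H85.sec Λ x)⁻¹ := (H85.sec_meas Λ).inv
  have key : ∀ (F : E → ℂ), Continuous F → (∀ (v : Λ) h, F (v * h) = F h) → ∀ k,
      ∫ h, F (h * k) ∂(ν.map fun x => (H85.sec Λ x)⁻¹) = ∫ h, F h ∂(ν.map fun x => (H85.sec Λ x)⁻¹) := by
    intro F hF hinv k
    obtain ⟨F', hF'⟩ := exists_desc Λ F hinv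
    have hF'c : Continuous F' := by
      refine (QuotientGroup.isQuotientMap_mk Λ).continuous_iff.2 ?_
      have : F' ∘ ((↑) : E → E ⧸ Λ) = fun x => F x⁻¹ := funext hF'
      rw [this]
      exact hF.comp continuous_inv
    have hFk : Continuous fun h => F (h * k) := hF.comp (continuous_mul_const k)
    rw [integral_map hsm.aemeasurable hFk.aestronglyMeasurable,
      integral_map hsm.aemeasurable hF.aestronglyMeasurable]
    have h1 : ∀ x : E ⧸ Λ, F ((H85.sec Λ x)⁻¹ * k) = F' (k⁻¹ • x) := by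
      intro x
      have h2 : ((k⁻¹ * H85.sec Λ x : E) : E ⧸ Λ) = k⁻¹ • x := by
        conv_rhs => rw [← H85.sec_coe Λ x]
        rfl
      rw [← h2, hF']
      congr 1
      group
    have h3 : ∀ x : E ⧸ Λ, F (H85.sec Λ x)⁻¹ = F' x := by
      intro x
      rw [← hF', H85.sec_coe]
    simp_rw [h1, h3]
    have h4 := hν k⁻¹
    have h5 : ∫ x, F' x ∂(ν.map fun x => k⁻¹ • x) = ∫ x, F' (k⁻¹ • x) ∂ν :=
      integral_map (continuous_const_smul k⁻¹).measurable.aemeasurable hF'c.aestronglyMeasurable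
    rw [← h5, h4]
  refine ⟨ν.map fun x => (H85.sec Λ x)⁻¹, ?_, ?_, ?_, ?_⟩
  · exact Measure.isProbabilityMeasure_map hsm.aemeasurable
  · rintro F hF - hinv k
    exact key F hF hinv k
  · rintro F hF ⟨C, hC⟩ h0 hinv hI x
    obtain ⟨F', hF'⟩ := exists_desc Λ F hinv
    have hF'c : Continuous F' := by
      refine (QuotientGroup.isQuotientMap_mk Λ).continuous_iff.2 ?_
      have : F' ∘ ((↑) : E → E ⧸ Λ) = fun x => F x⁻¹ := funext hF'
      rw [this]
      exact hF.comp continuous_inv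
    have hF0 : ∀ y, 0 ≤ F' y := by
      intro y
      obtain ⟨a, rfl⟩ := QuotientGroup.mk_surjective y
      rw [hF']
      exact h0 _
    have hFC : ∀ y, F' y ≤ C := by
      intro y
      obtain ⟨a, rfl⟩ := QuotientGroup.mk_surjective y
      rw [hF']
      exact hC _
    rw [integral_map hsm.aemeasurable hF.aestronglyMeasurable] at hI
    have h3 : ∀ x : E ⧸ Λ, F (H85.sec Λ x)⁻¹ = F' x := by
      intro x
      rw [← hF', H85.sec_coe]
    simp_rw [h3] at hI
    have hint : Integrable F' ν := by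
      refine Integrable.of_bound hF'c.aestronglyMeasurable C (ae_of_all _ fun y => ?_)
      rw [Real.norm_of_nonneg (hF0 y)]
      exact hFC y
    have h6 := (integral_eq_zero_iff_of_nonneg hF0 hint).1 hI
    by_contra hne
    have h7 : IsOpen {y | F' y ≠ 0} := isOpen_ne_fun hF'c continuous_const
    have h8 : {y | F' y ≠ 0}.Nonempty := ⟨(x⁻¹ : E), by
      rw [Set.mem_setOf_eq, hF', inv_inv]; exact hne⟩
    exact open_pos_of_inv hν h7 h8 h6
  · intro C hC
    exact finite_of_compact Λ hC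

theorem lat_of_st (Λ : Subgroup E) (h : H515.St.IsLattice Λ) :
    ∃ m : Measure E, Lat Λ.subtype m := lat_of_isLattice Λ ⟨h.disc, h.covol⟩

end main

section comp

variable {Λ E E' : Type} [Group Λ] [Group E] [TopologicalSpace E] [MeasurableSpace E]
  [BorelSpace E] [Group E'] [TopologicalSpace E'] [MeasurableSpace E'] [BorelSpace E']

/-- `Lat` in a quotient. -/
theorem Lat.comp {q : Λ →* E} {m : Measure E} (h : Lat q m) (π : E →* E') (hπ : Continuous π)
    (hs : Function.Surjective π)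
    (hc : ∀ C : Set E', IsCompact C → ∃ D : Set E, IsCompact D ∧ ∀ x, π x ∈ C → x ∈ D)
    [IsTopologicalGroup E'] [SecondCountableTopology E'] :
    Lat (π.comp q) (m.map π) := by
  haveI := h.prob
  refine ⟨Measure.isProbabilityMeasure_map hπ.measurable.aemeasurable, ?_, ?_, ?_⟩
  · rintro F hF ⟨C, hC⟩ hinv k
    obtain ⟨k, rfl⟩ := hs k
    have hFk : Continuous fun h => F (h * π k) := hF.comp (continuous_mul_const (π k))
    rw [integral_map hπ.measurable.aemeasurable hFk.aestronglyMeasurable,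
      integral_map hπ.measurable.aemeasurable hF.aestronglyMeasurable]
    have h1 := h.inv (fun x => F (π x)) (hF.comp hπ) ⟨C, fun x => hC _⟩
      (fun v x => by rw [map_mul]; exact hinv v _) k
    simp_rw [map_mul] at h1
    exact h1
  · rintro F hF ⟨C, hC⟩ h0 hinv hI x
    obtain ⟨x, rfl⟩ := hs x
    rw [integral_map hπ.measurable.aemeasurable hF.aestronglyMeasurable] at hI
    exact h.faith (fun x => F (π x)) (hF.comp hπ) ⟨C, fun x => hC _⟩ (fun x => h0 _)
      (fun v x => by rw [map_mul]; exact hinv v _) hI x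
  · intro C hC
    obtain ⟨D, hD, hDC⟩ := hc C hC
    exact (h.fin D hD).subset fun v hv => hDC _ hv

/-- Compact sets of a quotient by a compact normal subgroup have relatively compact preimages. -/
theorem exists_compact_of_ker {E E' : Type} [Group E] [TopologicalSpace E] [IsTopologicalGroup E]
    [LocallyCompactSpace E] [Group E'] [TopologicalSpace E'] (π : E →* E') (hπ : Continuous π)
    (ho : IsOpenMap π) (hs : Function.Surjective π) (hk : IsCompact (π.ker : Set E))
    (C : Set E') (hC : IsCompact C) : ∃ D : Set E, IsCompact D ∧ ∀ x, π x ∈ C → x ∈ D := by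
  obtain ⟨K, hK, hK1⟩ := exists_compact_mem_nhds (1 : E)
  obtain ⟨t, ht⟩ := hC.elim_finite_subcover
    (fun g : E => π '' ((fun x => g * x) '' interior K))
    (fun g => ho _ ((isOpenMap_mul_left g) _ isOpen_interior))
    (fun x _ => by
      obtain ⟨g, rfl⟩ := hs x
      exact Set.mem_iUnion.2 ⟨g, g, ⟨1, mem_interior_iff_mem_nhds.2 hK1, mul_one g⟩, rfl⟩)
  refine ⟨⋃ g ∈ t, ((fun x => g * x) '' K) * (π.ker : Set E), ?_, fun x hx => ?_⟩
  · exact t.finite_toSet.isCompact_biUnion fun g _ =>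
      (hK.image (continuous_const_mul g)).mul hk
  · obtain ⟨g, hg, y, ⟨z, hz, rfl⟩, hy⟩ := Set.mem_iUnion₂.1 (ht hx)
    refine Set.mem_iUnion₂.2 ⟨g, hg, Set.mem_mul.2 ⟨g * z, ⟨z, interior_subset hz, rfl⟩,
      (g * z)⁻¹ * x, ?_, mul_inv_cancel_left _ _⟩⟩
    show (g * z)⁻¹ * x ∈ π.ker
    rw [MonoidHom.mem_ker, map_mul, map_inv]
    have h1 : π (g * z) = π x := hy
    rw [h1, inv_mul_cancel]

end comp

end Vale.Agent.P092.PA
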