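import Vale.Agent.P092.PA.Main
import Vale.Agent.P092.H100.OutPA
import Vale.Agent.P092.H34.Glue
import Vale.Agent.P092.H553.TF

/-!
P092, Team A (helper701): the blocks [OUT] and [GLUE], plugged in.
-/

set_option linter.all false

open MeasureTheory Filter Topology ContinuousLinearMap
open scoped InnerProductSpace

namespace Vale.Agent.P092.PA

theorem outStmt : OutStmt := H100.out_blk

theorem gluStmt : GluStmt := by
  intro Γ Λ K G₁ G₂ H₁ H₂ _ _ _ _ _ _ _ _ _ _ _ _ _ _ _ _ _ _ _ _ _ _ _ _ _ _ _ _ _ _ _ _ _ _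
    _ D p₁ p₂ q₁ q₂ μ₁ _ _ μ₂ _ _ hp₁ hp₂ hq₁ hq₂ hp f₁ f₂ n₁ n₂ hC hO
  refine H34.glue hp f₁ f₂ n₁ n₂ hC hO ?_
  intro φ C hφ hφC hinv hu b d hb hd
  exact ⟨H553.TF.T μ₂ φ b d,
    H553.TF.fd_T f₂ hb hd hφ hφC (fun γ x y => hinv γ (x, y)) hu,
    H553.TF.acont_T f₂ hb hd hφ hφC,
    fun a ha x => H553.TF.comm_T f₂ hC hb hd hφ hφC ha x x,
    fun x ξ η => H553.TF.inner_T f₂ hb hd hφ hφC x ξ η⟩

/-- The blocks, given [COMM]. -/
theorem blocks_of_com (hcom : ComStmt) : Blocks FacS := blocks_of outStmt hcom gluStmt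

end Vale.Agent.P092.PA
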